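import Vale.Agent.P031.Tools

/-!
Sets of primes with a given number of elements are bounded in weight by the volume of a region
that contains every decreasing arrangement of their unit boxes.
-/

open Finset MeasureTheory

namespace P031.Upper

/-- The unit box of a vector of scales. -/
def box {k : ℕ} (t : Fin k → ℕ) : Set (Fin k → ℝ) :=
  Set.univ.pi fun i => Set.Ico (t i : ℝ) ((t i : ℝ) + 1)

lemma volume_box {k : ℕ} (t : Fin k → ℕ) : volume (box t) = 1 := by
  rw [box, Real.volume_pi_Ico]
  simp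

lemma mem_box {k : ℕ} {t : Fin k → ℕ} {z : Fin k → ℝ} (hz : z ∈ box t) (i : Fin k) :
    0 ≤ z i ∧ ⌊z i⌋₊ = t i := by
  have h := hz i trivial
  have h0 : 0 ≤ z i := le_trans (Nat.cast_nonneg _) h.1
  exact ⟨h0, (Nat.floor_eq_iff h0).2 ⟨h.1, h.2⟩⟩

/-- A finite family of vectors, all of whose decreasing rearrangements have box inside `D`. -/
lemma card_le_volume {k : ℕ} (T : Finset (Fin k → ℕ)) (D : Set (Fin k → ℝ))
    (hD : MeasurableSet D)
    (h : ∀ t ∈ T, ∀ z : Fin k → ℝ, Antitone z → (∀ i, 0 ≤ z i) →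
      (univ.val.map fun i => ⌊z i⌋₊) = univ.val.map t → z ∈ D) :
    (T.card : ENNReal) ≤ (k.factorial : ENNReal) * volume D := by
  have hsub : (⋃ t ∈ T, box t) ⊆
      ⋃ π : Equiv.Perm (Fin k), MeasurableEquiv.arrowCongr' π (MeasurableEquiv.refl ℝ) ⁻¹' D := by
    intro z hz
    obtain ⟨t, ht, hzt⟩ := Set.mem_iUnion₂.1 hz
    set π := Tuple.sort fun i => -z i
    refine Set.mem_iUnion.2 ⟨π.symm, ?_⟩
    have he : MeasurableEquiv.arrowCongr' π.symm (MeasurableEquiv.refl ℝ) z =
        fun i => z (π i) := by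
      funext i
      simp [MeasurableEquiv.arrowCongr', Equiv.arrowCongr', Equiv.arrowCongr]
    rw [Set.mem_preimage, he]
    refine h t ht _ (fun i j hij => ?_) (fun i => (mem_box hzt _).1) ?_
    · have := Tuple.monotone_sort (fun i => -z i) hij
      simp only [Function.comp_apply, neg_le_neg_iff] at this
      exact this
    · have e : (fun i => ⌊z (π i)⌋₊) = fun i => t (π i) := funext fun i => (mem_box hzt _).2
      rw [e]
      show Multiset.map (t ∘ π) univ.val = _
      rw [← Multiset.map_map t π, Multiset.map_univ_val_equiv]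
  have hdisj : Set.PairwiseDisjoint (T : Set (Fin k → ℕ)) box := by
    intro t _ t' _ hne
    rw [Function.onFun, Set.disjoint_left]
    exact fun z hz hz' => hne (funext fun i => (mem_box hz i).2.symm.trans (mem_box hz' i).2)
  calc (T.card : ENNReal) = volume (⋃ t ∈ T, box t) := by
        rw [measure_biUnion_finset hdisj fun t _ =>
          MeasurableSet.univ_pi fun _ => measurableSet_Ico]
        simp [volume_box]
    _ ≤ ∑ π : Equiv.Perm (Fin k),
        volume (MeasurableEquiv.arrowCongr' π (MeasurableEquiv.refl ℝ) ⁻¹' D) :=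
      (measure_mono hsub).trans (measure_iUnion_fintype_le _ _)
    _ = _ := by
      rw [Finset.sum_congr rfl fun π _ => (volume_preserving_arrowCongr' π _
        (MeasurePreserving.id _)).measure_preimage hD.nullMeasurableSet]
      simp [Fintype.card_perm]

/-- The weight of sets of `k` primes against the volume of `D`. -/
theorem weight_le_volume {k : ℕ} (Ps : Finset (Finset ℕ)) (D : Set (Fin k → ℝ))
    (hD : MeasurableSet D) (hfin : volume D ≠ ⊤) (w : ℕ → ℝ) (δ : ℕ → ℝ) (C : ℝ) (hC : 0 ≤ C)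
    (hP : ∀ P ∈ Ps, P.card = k ∧ (∀ p ∈ P, p.Prime) ∧ ∏ p ∈ P, (1 + δ (cell p)) ≤ C ∧
      ∀ p ∈ P, ∑ q ∈ cellPrimes (cell p), w q ≤ 1 + δ (cell p))
    (hw : ∀ q : ℕ, q.Prime → 0 ≤ w q)
    (hz : ∀ P ∈ Ps, ∀ z : Fin k → ℝ, Antitone z → (∀ i, 0 ≤ z i) →
      (univ.val.map fun i => ⌊z i⌋₊) = P.val.map cell → z ∈ D) :
    ∑ P ∈ Ps, ∏ p ∈ P, w p ≤ C * (volume D).toReal := by
  classical
  set enum : Finset ℕ → Finset (Fin k → ℕ) := fun P =>
    (Fintype.piFinset fun _ : Fin k => P).filter Function.Injective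
  have himg : ∀ P ∈ Ps, ∀ q ∈ enum P, univ.image q = P := by
    intro P hP' q hq
    obtain ⟨h1, h2⟩ := mem_filter.1 hq
    refine eq_of_subset_of_card_le (fun x hx => ?_) ?_
    · obtain ⟨i, -, rfl⟩ := mem_image.1 hx
      exact Fintype.mem_piFinset.1 h1 i
    · rw [card_image_of_injective _ h2, (hP P hP').1, card_univ, Fintype.card_fin]
  have hdis : Set.PairwiseDisjoint (Ps : Set (Finset ℕ)) enum := by
    intro P hP' P' hP'' hne
    rw [Function.onFun, disjoint_left]
    exact fun q hq hq' => hne ((himg P hP' q hq).symm.trans (himg P' hP'' q hq'))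
  have hcard : ∀ P ∈ Ps, (enum P).card = k.factorial := by
    intro P hP'
    have e : (enum P).card = Fintype.card (Fin k ↪ (P : Set ℕ)) := by
      rw [← Finset.card_univ]
      refine card_bij' (fun q hq => ⟨fun i => ⟨q i, Fintype.mem_piFinset.1 (mem_filter.1 hq).1 i⟩,
          fun i j hij => (mem_filter.1 hq).2 (congrArg Subtype.val hij)⟩)
        (fun f _ i => (f i).1) (fun _ _ => mem_univ _) (fun f _ => mem_filter.2
          ⟨Fintype.mem_piFinset.2 fun i => (f i).2,
            fun i j hij => f.injective (Subtype.ext hij)⟩) (fun _ _ => rfl) (fun _ _ => rfl)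
    rw [e, Fintype.card_embedding_eq]
    simp [(hP P hP').1, Nat.descFactorial_self]
  set Q := Ps.biUnion enum
  set T := Q.image fun q i => cell (q i)
  have hval : ∀ P ∈ Ps, ∀ q ∈ enum P, (univ.val.map fun i => cell (q i)) = P.val.map cell := by
    intro P hP' q hq
    show Multiset.map (cell ∘ q) univ.val = _
    rw [← Multiset.map_map cell q, ← image_val_of_injOn ((mem_filter.1 hq).2.injOn), himg P hP' q hq]
  have hT : (T.card : ℝ) ≤ k.factorial * (volume D).toReal := by
    have h := card_le_volume T D hD fun t ht z ha h0 hm => by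
      obtain ⟨q, hq, rfl⟩ := mem_image.1 ht
      obtain ⟨P, hP', hqP⟩ := mem_biUnion.1 hq
      exact hz P hP' z ha h0 (hm.trans (hval P hP' q hqP))
    have := ENNReal.toReal_mono (ENNReal.mul_ne_top (ENNReal.natCast_ne_top _) hfin) h
    simpa using this
  have hmain : ((k.factorial : ℕ) : ℝ) * ∑ P ∈ Ps, ∏ p ∈ P, w p ≤ (T.card : ℝ) * C := by
    calc ((k.factorial : ℕ) : ℝ) * ∑ P ∈ Ps, ∏ p ∈ P, w p
        = ∑ q ∈ Q, ∏ i, w (q i) := by
          rw [sum_biUnion hdis, mul_sum]
          refine sum_congr rfl fun P hP' => ?_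
          rw [sum_congr rfl fun q hq => (show ∏ i, w (q i) = ∏ p ∈ P, w p from by
            rw [← himg P hP' q hq, prod_image ((mem_filter.1 hq).2.injOn)]),
            sum_const, hcard P hP', nsmul_eq_mul]
      _ = ∑ t ∈ T, ∑ q ∈ Q.filter (fun q => (fun i => cell (q i)) = t), ∏ i, w (q i) :=
          (sum_fiberwise_of_maps_to (fun q hq => mem_image_of_mem _ hq) _).symm
      _ ≤ ∑ _t ∈ T, C := sum_le_sum fun t ht => by
          obtain ⟨q₀, hq₀, rfl⟩ := mem_image.1 ht
          obtain ⟨P, hP', hqP⟩ := mem_biUnion.1 hq₀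
          refine (sum_le_sum_of_subset_of_nonneg
            (t := Fintype.piFinset fun i => cellPrimes (cell (q₀ i))) (fun q hq => ?_)
            fun q hq _ => prod_nonneg fun i _ =>
              hw _ (mem_filter.1 (Fintype.mem_piFinset.1 hq i)).2.1).trans ?_
          · obtain ⟨hqQ, hqt⟩ := mem_filter.1 hq
            obtain ⟨P', hP'', hqP'⟩ := mem_biUnion.1 hqQ
            refine Fintype.mem_piFinset.2 fun i => ?_
            rw [← congrFun hqt i]
            refine mem_cellPrimes.2 ⟨(hP P' hP'').2.1 _ ?_, rfl⟩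
            exact Fintype.mem_piFinset.1 (mem_filter.1 hqP').1 i
          rw [← prod_univ_sum]
          have hmem : ∀ i, q₀ i ∈ P := fun i =>
            Fintype.mem_piFinset.1 (mem_filter.1 hqP).1 i
          refine (prod_le_prod (fun i _ => sum_nonneg fun q hq => hw _ (mem_filter.1 hq).2.1)
            fun i _ => (hP P hP').2.2.2 _ (hmem i)).trans (le_of_eq_of_le ?_ (hP P hP').2.2.1)
          rw [← himg P hP' q₀ hqP, prod_image ((mem_filter.1 hqP).2.injOn)]
      _ = _ := by rw [sum_const, nsmul_eq_mul]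
  have hk : (0 : ℝ) < k.factorial := by exact_mod_cast k.factorial_pos
  refine le_of_mul_le_mul_left (hmain.trans ?_) hk
  calc (T.card : ℝ) * C ≤ (k.factorial * (volume D).toReal) * C :=
        mul_le_mul_of_nonneg_right hT hC
    _ = _ := by ring

end P031.Upper
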