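import Vale.Agent.P031.Upper.Poly

/-!
The part of a boundary cofactor above the highest bad scale: its scales fill boxes inside the
layer of the loose polytopes.
-/

open Finset MeasureTheory Filter

noncomputable section

namespace P031.Upper

/-- The thresholds from which the growth facts hold. -/
structure Large (s : ℕ) : Prop where
  big : 257 ≤ s
  half : 2 * Kmax (cutoff s) ≤ Kmax s
  shift : Kmax (s + 2) ≤ 2 * Kmax s
  growth : ((cutoff s : ℝ) + 5) * (5 * (Kmax s : ℝ) + 1) ^ 2 ≤ (s : ℝ) ^ ((7 : ℝ) / 8)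

lemma eventually_large : ∀ᶠ s : ℕ in atTop, Large s := by
  filter_upwards [eventually_ge_atTop 257, eventually_Kmax_cutoff, eventually_Kmax_shift,
    eventually_growth] with s h1 h2 h3 h4
  exact ⟨h1, h2, h3, h4⟩

variable {n c : ℕ}

lemma rows_profile (n S u : ℕ) :
    rows (profile n S) u = ((high n S).filter fun x => u ≤ cell x).card := by
  rw [rows, profile, Multiset.countP_map]
  rfl

lemma high_lowPart (hn : n ≠ 0) (b S : ℕ) :
    high (lowPart n b) S = (high n S).filter fun x => cell x < b := by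
  rw [high, high, primeFactors_lowPart hn, filter_filter, filter_filter]
  exact filter_congr fun x _ => and_comm

lemma topCell_lowPart (hn : n ≠ 0) {p : ℕ} (hp : p ∈ n.primeFactors) :
    TopCell (lowPart n (cell p + 1)) (cell p) := by
  constructor
  · intro q hq
    rw [primeFactors_lowPart hn] at hq
    exact Nat.lt_succ_iff.1 (mem_filter.1 hq).2
  · refine ⟨p, ?_, rfl⟩
    rw [primeFactors_lowPart hn]
    exact mem_filter.2 ⟨hp, Nat.lt_succ_self _⟩

/-- No scale from `c` on is bad, and all of them are large. -/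
def Clean (n c : ℕ) : Prop :=
  n ≠ 0 ∧ (∀ s, c ≤ s → Large s) ∧ ∀ p ∈ high n c, ¬ Bad (cell p) (lowPart n (cell p + 1))

lemma Clean.fine (h : Clean n c) {p : ℕ} (hp : p ∈ high n c) :
    ¬ Exceptional (cell p) (lowPart n (cell p + 1)) ∧
      levG (cell p) (lowPart n (cell p + 1)) ≤ (1 + eps (cell p)) * cell p := by
  have h1 := h.2.2 p hp
  simp only [Bad, topCell_lowPart h.1 (mem_filter.1 hp).1, true_and, not_or, not_lt] at h1
  exact h1

lemma Clean.sq (h : Clean n c) {p : ℕ} (hp : p ∈ high n c) : ¬ p ^ 2 ∣ n := by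
  obtain ⟨h1, h2⟩ := mem_filter.1 hp
  have hpp := Nat.prime_of_mem_primeFactors h1
  intro hd
  refine (h.fine hp).1 (Or.inl ⟨p, ?_, Or.inl ?_⟩)
  · rw [high_lowPart h.1]
    exact mem_filter.2 ⟨mem_filter.2 ⟨h1, Nat.sqrt_le_self _⟩, Nat.lt_succ_self _⟩
  · refine (Nat.pow_dvd_pow p ((hpp.pow_dvd_iff_le_factorization h.1).1 hd)).trans ?_
    exact dvd_prod_of_mem (fun q => q ^ n.factorization q)
      (mem_filter.2 ⟨h1, Nat.lt_succ_self (cell p)⟩)

lemma Clean.window (h : Clean n c) {p : ℕ} (hp : p ∈ high n c) :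
    ((high n c).filter fun x => cutoff (cell p) ≤ cell x ∧ cell x ≤ cell p).card ≤
      Kmax (cell p) := by
  have h1 := (h.fine hp).1
  simp only [Exceptional, not_or, not_lt] at h1
  refine le_trans (card_le_card fun x hx => ?_) h1.2.1
  obtain ⟨hx1, hx2, hx3⟩ := mem_filter.1 hx
  rw [high_lowPart h.1]
  exact mem_filter.2 ⟨mem_filter.2 ⟨(mem_filter.1 hx1).1, hx2⟩, Nat.lt_succ_of_le hx3⟩

lemma Clean.count (h : Clean n c) :
    ∀ s, ((high n c).filter fun x => cell x ≤ s).card ≤ 2 * Kmax s := by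
  intro s
  induction s using Nat.strong_induction_on with
  | _ s ih =>
    set F := (high n c).filter fun x => cell x ≤ s
    rcases F.eq_empty_or_nonempty with hF | hF
    · simp [hF]
    obtain ⟨p, hp, hmax⟩ := exists_max_image F cell hF
    obtain ⟨hp1, hp2⟩ := mem_filter.1 hp
    have hL := h.2.1 (cell p) (mem_filter.1 hp1).2
    have hlt : cutoff (cell p) < cell p := Nat.sqrt_lt_self (by linarith [hL.big])
    have h1 : F ⊆ ((high n c).filter fun x => cutoff (cell p) ≤ cell x ∧ cell x ≤ cell p) ∪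
        ((high n c).filter fun x => cell x ≤ cutoff (cell p)) := fun x hx => by
      have h2 := hmax x hx
      obtain ⟨hx1, -⟩ := mem_filter.1 hx
      rcases le_total (cutoff (cell p)) (cell x) with h3 | h3
      · exact mem_union_left _ (mem_filter.2 ⟨hx1, h3, h2⟩)
      · exact mem_union_right _ (mem_filter.2 ⟨hx1, h3⟩)
    have := (card_le_card h1).trans (card_union_le _ _)
    have := h.window hp1
    have := ih _ (hlt.trans_le hp2)
    have := hL.half
    have := Kmax_mono hp2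
    omega

lemma Clean.cost (h : Clean n c) {p : ℕ} (hp : p ∈ high n c) :
    ∑ u ∈ Ico (cutoff (cell p)) (cell p),
      gfun ((high n c).filter fun x => u ≤ cell x ∧ cell x ≤ cell p).card ≤
        (1 + eps (cell p)) * cell p := by
  refine le_trans (sum_le_sum fun u hu => gfun_mono ?_) (h.fine hp).2
  rw [rows_profile, high_lowPart h.1]
  refine card_le_card fun x hx => ?_
  obtain ⟨hx1, hx2, hx3⟩ := mem_filter.1 hx
  exact mem_filter.2 ⟨mem_filter.2
    ⟨mem_filter.2 ⟨(mem_filter.1 hx1).1, (mem_Ico.1 hu).1.trans hx2⟩, Nat.lt_succ_of_le hx3⟩, hx2⟩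

lemma Clean.multiplicity (h : Clean n c) (t : ℕ) :
    ((high n c).filter fun x => cell x = t).card ≤ 3 := by
  by_contra! h4
  obtain ⟨p, hp⟩ := card_pos.1 (show 0 < ((high n c).filter fun x => cell x = t).card by omega)
  obtain ⟨hp1, rfl⟩ := mem_filter.1 hp
  have hL := h.2.1 (cell p) (mem_filter.1 hp1).2
  set s := cell p
  have h1 : (((s - cutoff s : ℕ)) : ℝ) * 2 ≤ (1 + eps s) * s := by
    refine le_trans ?_ (h.cost hp1)
    rw [← nsmul_eq_mul, ← Nat.card_Ico, ← sum_const]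
    refine sum_le_sum fun u hu => two_le_gfun ?_
    refine le_trans h4 (card_le_card fun x hx => ?_)
    obtain ⟨hx1, hx2⟩ := mem_filter.1 hx
    exact mem_filter.2 ⟨hx1, hx2 ▸ (mem_Ico.1 hu).2.le, hx2.le⟩
  have hs : (257 : ℝ) ≤ s := by exact_mod_cast hL.big
  have hsq : cutoff s * 8 ≤ s := by
    have h2 : 16 ≤ cutoff s := Nat.le_sqrt.2 (by linarith [hL.big])
    calc cutoff s * 8 ≤ cutoff s * cutoff s := Nat.mul_le_mul_left _ (by omega)
      _ ≤ s := Nat.sqrt_le s
  rw [Nat.cast_sub (show cutoff s ≤ s from Nat.sqrt_le_self s)] at h1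
  have hsq' : (cutoff s : ℝ) * 8 ≤ s := by exact_mod_cast hsq
  have he : eps s ≤ 1 / 2 := by
    rw [eps, show -(1 : ℝ) / 8 = -(1 / 8) by norm_num, Real.rpow_neg (by linarith), one_div (2 : ℝ)]
    refine inv_anti₀ two_pos ?_
    calc (2 : ℝ) = ((2 : ℝ) ^ (8 : ℕ)) ^ ((1 : ℝ) / 8) := by
          rw [← Real.rpow_natCast 2 8, ← Real.rpow_mul (by norm_num)]; norm_num
      _ ≤ _ := Real.rpow_le_rpow (by norm_num) (by norm_num; linarith) (by norm_num)
  nlinarith

/-- The boxes of the clean part of a boundary cofactor lie in the layer. -/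
theorem mem_layer {T : ℕ} {s0 : ℝ} (hc : Clean n c) (hT : Large T) (hs0 : s0 ≤ c)
    (hcT : c ≤ cutoff T + 1) (hMid : Mid T n) {k : ℕ} (z : Fin k → ℝ) (hz : Antitone z)
    (h0 : ∀ i, 0 ≤ z i)
    (hm : (univ.val.map fun i => ⌊z i⌋₊) = (high n c).val.map cell) :
    z ∈ PolyPlus k s0 ((1 + 6 * eps T) * T) \ PolyPlus k s0 ((1 - 6 * eps T) * T) := by
  obtain ⟨hn, hle, hexc, htop, hmid⟩ := hMid
  set P := high n c
  set S := cutoff T
  have hcell : ∀ i, ∃ x ∈ P, cell x = ⌊z i⌋₊ := fun i => by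
    have h : ⌊z i⌋₊ ∈ univ.val.map fun i => ⌊z i⌋₊ :=
      Multiset.mem_map.2 ⟨i, by simp, rfl⟩
    rw [hm] at h
    obtain ⟨x, hx, hx'⟩ := Multiset.mem_map.1 h
    exact ⟨x, hx, hx'⟩
  have hU : ∀ i, ⌊z i⌋₊ ≤ T + 2 := fun i => by
    obtain ⟨x, hx, hx'⟩ := hcell i
    exact hx' ▸ hle x (mem_filter.1 hx).1
  have hT1 : 1 ≤ T := by linarith [hT.big]
  have hgr := hT.growth
  have hεT := le_eps_mul hT1
  have hST : S ≤ T := Nat.sqrt_le_self T
  have h3 : (3 : ℝ) ≤ 6 * (eps T * T) := by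
    have : (1 : ℝ) ≤ (T : ℝ) ^ ((7 : ℝ) / 8) :=
      Real.one_le_rpow (by exact_mod_cast hT1) (by norm_num)
    linarith
  have hP : P.card ≤ 4 * Kmax T := by
    have e : P.filter (fun x => cell x ≤ T + 2) = P :=
      filter_true_of_mem fun x hx => hle x (mem_filter.1 hx).1
    have := hc.count (T + 2)
    rw [e] at this
    have := hT.shift
    omega
  have hK : (0 : ℝ) ≤ Kmax T := Nat.cast_nonneg _
  have hsmall : ∀ r : ℕ, r ≤ 5 * Kmax T + 1 → gfun r ≤ (5 * (Kmax T : ℝ) + 1) ^ 2 := fun r hr => by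
    refine (gfun_le_sq r).trans (pow_le_pow_left₀ (Nat.cast_nonneg _) ?_ 2)
    exact_mod_cast hr
  have hrows : ∀ u, u < T → rows (T ::ₘ profile n S) u =
      ((high n S).filter fun x => u ≤ cell x).card + 1 := fun u hu => by
    rw [rows, Multiset.countP_cons_of_pos _ hu.le, ← rows, rows_profile]
  have htopG : topG T n =
      ∑ u ∈ Ico S T, gfun (((high n S).filter fun x => u ≤ cell x).card + 1) := by
    rw [topG, gsum]
    exact sum_congr rfl fun u hu => by rw [hrows u (mem_Ico.1 hu).2]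
  have hsum : topSum z ≤ (1 + 6 * eps T) * T := by
    refine (top_le hz hm hU).trans ?_
    rw [range_eq_Ico, ← sum_Ico_consecutive _ (Nat.zero_le S) (by omega : S ≤ T + 2 + 1),
      ← sum_Ico_consecutive _ hST (by omega : T ≤ T + 2 + 1)]
    have hb : ∀ u, gfun ((P.filter fun x => u ≤ cell x).card + 1) ≤
        (5 * (Kmax T : ℝ) + 1) ^ 2 := fun u => hsmall _ (by
      have := card_filter_le P fun x => u ≤ cell x
      omega)
    have h1 : ∑ u ∈ Ico 0 S, gfun ((P.filter fun x => u ≤ cell x).card + 1) ≤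
        (S : ℝ) * (5 * (Kmax T : ℝ) + 1) ^ 2 :=
      (sum_le_card_nsmul _ _ _ fun u _ => hb u).trans (le_of_eq (by simp))
    have h2 : ∑ u ∈ Ico T (T + 2 + 1), gfun ((P.filter fun x => u ≤ cell x).card + 1) ≤
        3 * (5 * (Kmax T : ℝ) + 1) ^ 2 :=
      (sum_le_card_nsmul _ _ _ fun u _ => hb u).trans (le_of_eq (by simp [add_assoc]))
    have h4 : ∑ u ∈ Ico S T, gfun ((P.filter fun x => u ≤ cell x).card + 1) ≤ topG T n := by
      rw [htopG]
      refine sum_le_sum fun u hu => gfun_mono (Nat.add_le_add_right (card_le_card fun x hx => ?_) 1)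
      obtain ⟨hx1, hx2⟩ := mem_filter.1 hx
      exact mem_filter.2
        ⟨mem_filter.2 ⟨(mem_filter.1 hx1).1, (mem_Ico.1 hu).1.trans hx2⟩, hx2⟩
    nlinarith
  refine ⟨⟨fun i => ?_, fun i => ?_, fun i j hij => hz hij, fun i => ?_, hsum⟩, fun hmem => ?_⟩
  · obtain ⟨x, hx, hx'⟩ := hcell i
    refine hs0.trans ((Nat.cast_le.2 (mem_filter.1 hx).2).trans ?_)
    rw [hx']
    exact Nat.floor_le (h0 i)
  · have h1 := Nat.lt_floor_add_one (z i)
    have h2 : (⌊z i⌋₊ : ℝ) ≤ ((T + 2 : ℕ) : ℝ) := Nat.cast_le.2 (hU i)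
    push_cast at h2
    linarith
  · obtain ⟨p, hp, hp'⟩ := hcell i
    have hL := hc.2.1 (cell p) (mem_filter.1 hp).2
    refine (tail_le hz hm i).trans ?_
    rw [← hp', sum_range_succ, range_eq_Ico,
      ← sum_Ico_consecutive _ (Nat.zero_le _) (Nat.sqrt_le_self (cell p))]
    set s := cell p
    have hb : ∀ u, gfun (P.filter fun x => u ≤ cell x ∧ cell x ≤ s).card ≤
        (5 * (Kmax s : ℝ) + 1) ^ 2 := fun u => by
      refine (gfun_le_sq _).trans (pow_le_pow_left₀ (Nat.cast_nonneg _) ?_ 2)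
      have h1 : (P.filter fun x => u ≤ cell x ∧ cell x ≤ s).card ≤ 5 * Kmax s + 1 := by
        have := (card_le_card (monotone_filter_right P fun x _ (hx : u ≤ cell x ∧ cell x ≤ s) =>
          hx.2)).trans (hc.count s)
        omega
      exact_mod_cast h1
    have h1 : ∑ u ∈ Ico 0 (cutoff s), gfun (P.filter fun x => u ≤ cell x ∧ cell x ≤ s).card ≤
        (cutoff s : ℝ) * (5 * (Kmax s : ℝ) + 1) ^ 2 :=
      (sum_le_card_nsmul _ _ _ fun u _ => hb u).trans (le_of_eq (by simp))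
    have h2 := hc.cost hp
    have h3 := hb s
    have h4 := eps_mul_le (show 1 ≤ s by linarith [hL.big])
    have hK' : (0 : ℝ) ≤ Kmax s := Nat.cast_nonneg _
    have hg := hL.growth
    have hzs : (s : ℝ) ≤ z i := by
      rw [show s = ⌊z i⌋₊ from hp']; exact Nat.floor_le (h0 i)
    have hs1 : (1 : ℝ) ≤ s := by exact_mod_cast (show 1 ≤ s by linarith [hL.big])
    have h5 : (s : ℝ) ^ ((7 : ℝ) / 8) ≤ z i ^ ((7 : ℝ) / 8) :=
      Real.rpow_le_rpow (by linarith) hzs (by norm_num)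
    have h6 : z i ^ (-(1 : ℝ) / 8) * z i = z i ^ ((7 : ℝ) / 8) := by
      rw [← Real.rpow_add_one (by linarith)]; norm_num
    change ∑ u ∈ Ico 0 (cutoff s), gfun (P.filter fun x => u ≤ cell x ∧ cell x ≤ s).card +
      ∑ u ∈ Ico (cutoff s) s, gfun (P.filter fun x => u ≤ cell x ∧ cell x ≤ s).card + _ ≤ _
    change ∑ u ∈ Ico (cutoff s) s, gfun (P.filter fun x => u ≤ cell x ∧ cell x ≤ s).card ≤
      (1 + eps s) * (s : ℝ) at h2
    have hX : (0 : ℝ) ≤ (5 * (Kmax s : ℝ) + 1) ^ 2 := sq_nonneg _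
    nlinarith
  · obtain ⟨h1, h2, -, -, h5⟩ := hmem
    rcases hmid with hmid | ⟨p, hp, hp'⟩
    · have h6 : topG T n ≤ (5 * (Kmax T : ℝ) + 1) ^ 2 + topSum z := by
        have hST' : S < T := Nat.sqrt_lt_self (by linarith [hT.big])
        rw [htopG, sum_eq_sum_Ico_succ_bot hST']
        refine add_le_add (hsmall _ ?_) ?_
        · simp only [Exceptional, not_or, not_lt] at hexc
          have := card_filter_le (high n S) fun x => S ≤ cell x
          have : (high n S).card ≤ Kmax T := hexc.2.1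
          omega
        · refine le_of_eq_of_le (sum_congr rfl fun u hu => ?_)
            (le_top (a := S + 1) (b := T) (by omega) hz h0 hm)
          have hu1 := (mem_Ico.1 hu).1
          congr 3
          ext x
          simp only [P, high, mem_filter]
          constructor <;> rintro ⟨⟨hx1, hx2⟩, hx3⟩ <;> exact ⟨⟨hx1, by omega⟩, hx3⟩
      nlinarith [(Nat.cast_nonneg S : (0 : ℝ) ≤ S), sq_nonneg (5 * (Kmax T : ℝ) + 1)]
    · have hpS : S < cell p := by
        by_contra! hle'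
        have h7 : (cell p : ℝ) ≤ S := Nat.cast_le.2 hle'
        have h8 : (S : ℝ) * 8 ≤ T := by
          have h9 : S * 8 ≤ T :=
            (Nat.mul_le_mul_left S (Nat.le_sqrt.2 (by linarith [hT.big]) : 8 ≤ S)).trans
              (Nat.sqrt_le T)
          exact_mod_cast h9
        have h10 : eps T * T ≤ (T : ℝ) ^ ((7 : ℝ) / 8) := eps_mul_le hT1
        have h11 : (T : ℝ) ^ ((7 : ℝ) / 8) * 2 ≤ T := by
          have h12 : (2 : ℝ) ≤ (T : ℝ) ^ ((1 : ℝ) / 8) := by
            calc (2 : ℝ) = ((2 : ℝ) ^ (8 : ℕ)) ^ ((1 : ℝ) / 8) := by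
                  rw [← Real.rpow_natCast 2 8, ← Real.rpow_mul (by norm_num)]; norm_num
              _ ≤ _ := Real.rpow_le_rpow (by norm_num)
                  (by norm_num; exact_mod_cast (show 256 ≤ T by linarith [hT.big])) (by norm_num)
          calc (T : ℝ) ^ ((7 : ℝ) / 8) * 2
              ≤ (T : ℝ) ^ ((7 : ℝ) / 8) * (T : ℝ) ^ ((1 : ℝ) / 8) :=
                mul_le_mul_of_nonneg_left h12 (by positivity)
            _ = T := by rw [← Real.rpow_add (by exact_mod_cast hT1)]; norm_num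
        nlinarith
      have hpP : p ∈ P := mem_filter.2 ⟨hp, by omega⟩
      have h : cell p ∈ univ.val.map fun i => ⌊z i⌋₊ := hm ▸ Multiset.mem_map.2 ⟨p, hpP, rfl⟩
      obtain ⟨i, -, hi⟩ := Multiset.mem_map.1 h
      have h7 : (cell p : ℝ) ≤ z i := hi ▸ Nat.floor_le (h0 i)
      have h8 := h2 i
      nlinarith

end P031.Upper
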