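import Vale.Agent.P031.Tools

/-!
The weighted coordinate sums of a decreasing vector against the entropy cost of its scales, and
the growth facts that absorb the error terms.
-/

open Finset MeasureTheory Filter

noncomputable section

namespace P031.Upper

lemma gfun_le_sq (r : ℕ) : gfun r ≤ (r : ℝ) ^ 2 := by
  rw [gfun]
  split_ifs with h
  · positivity
  · have hr : (2 : ℝ) ≤ r := by exact_mod_cast (by omega : 2 ≤ r)
    nlinarith [Real.log_le_self (show (0 : ℝ) ≤ r by linarith)]

lemma two_le_gfun {r : ℕ} (hr : 4 ≤ r) : 2 ≤ gfun r := by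
  refine le_trans ?_ (gfun_mono hr)
  have : Real.log 4 = 2 * Real.log 2 := by
    rw [show (4 : ℝ) = 2 ^ 2 by norm_num, Real.log_pow]; push_cast; ring
  simp [gfun, this]
  linarith [Real.log_two_gt_d9]

/-- The coefficients over an initial segment add up to the entropy cost. -/
lemma sum_initial (A : Finset ℕ) (h : ∀ x ∈ A, ∀ y, y < x → y ∈ A) :
    ∑ x ∈ A, aCoef (x + 1) = gfun (A.card + 1) := by
  have hA : A = range A.card := by
    refine eq_of_subset_of_card_le (fun x hx => mem_range.2 ?_) (by simp)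
    have : range (x + 1) ⊆ A := fun y hy => by
      rcases (Nat.lt_succ_iff.1 (mem_range.1 hy)).eq_or_lt with e | e
      · exact e ▸ hx
      · exact h x hx y e
    simpa using card_le_card this
  rw [gfun_succ]
  conv_lhs => rw [hA]

variable {k : ℕ} {f : Fin k → ℕ} {z : Fin k → ℝ}

lemma sum_tail_seg (hf : Antitone f) (i : Fin k) (u : ℕ) :
    ∑ j ∈ univ.filter (fun j => i < j ∧ u ≤ f j), aCoef ((j : ℕ) - (i : ℕ)) =
      gfun ((univ.filter fun j => i < j ∧ u ≤ f j).card + 1) := by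
  set A := (univ.filter fun j => i < j ∧ u ≤ f j).image fun j : Fin k => (j : ℕ) - (i : ℕ) - 1
  have hinj : Set.InjOn (fun j : Fin k => (j : ℕ) - (i : ℕ) - 1)
      (univ.filter fun j => i < j ∧ u ≤ f j : Finset (Fin k)) := by
    intro a ha b hb hab
    have ha' : (i : ℕ) < a := (mem_filter.1 (mem_coe.1 ha)).2.1
    have hb' : (i : ℕ) < b := (mem_filter.1 (mem_coe.1 hb)).2.1
    simp only at hab
    exact Fin.ext (by omega)
  have h := sum_initial A fun x hx y hy => by
    obtain ⟨j, hj, rfl⟩ := mem_image.1 hx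
    obtain ⟨-, hij, hju⟩ := mem_filter.1 hj
    have hj' : (i : ℕ) < j := hij
    have hlt := j.isLt
    refine mem_image.2 ⟨⟨i + y + 1, by omega⟩, mem_filter.2 ⟨mem_univ _, ?_, hju.trans (hf ?_)⟩, ?_⟩
    · show (i : ℕ) < i + y + 1
      omega
    · show i + y + 1 ≤ (j : ℕ)
      omega
    · simp only; omega
  rw [sum_image hinj, card_image_of_injOn hinj] at h
  rw [← h]
  refine sum_congr rfl fun j hj => ?_
  have hj' : (i : ℕ) < j := (mem_filter.1 hj).2.1
  congr 1
  omega

lemma sum_top_seg (hf : Antitone f) (u : ℕ) :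
    ∑ j ∈ univ.filter (fun j => u ≤ f j), aCoef ((j : ℕ) + 1) =
      gfun ((univ.filter fun j => u ≤ f j).card + 1) := by
  set A := (univ.filter fun j => u ≤ f j).image fun j : Fin k => (j : ℕ)
  have h := sum_initial A fun x hx y hy => by
    obtain ⟨j, hj, rfl⟩ := mem_image.1 hx
    have hlt := j.isLt
    refine mem_image.2 ⟨⟨y, by omega⟩, mem_filter.2
      ⟨mem_univ _, (mem_filter.1 hj).2.trans (hf ?_)⟩, rfl⟩
    show y ≤ (j : ℕ)
    omega
  rwa [sum_image (Fin.val_injective.injOn), card_image_of_injective _ Fin.val_injective] at h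

lemma antitone_floor (hz : Antitone z) : Antitone fun i => ⌊z i⌋₊ :=
  fun _ _ h => Nat.floor_le_floor (hz h)

lemma card_filter_floor {P : Finset ℕ}
    (hm : (univ.val.map fun i => ⌊z i⌋₊) = P.val.map cell) (p : ℕ → Prop) [DecidablePred p] :
    (univ.filter fun i => p ⌊z i⌋₊).card = (P.filter fun x => p (cell x)).card := by
  have h := congrArg (Multiset.countP p) hm
  rwa [Multiset.countP_map, Multiset.countP_map] at h

/-- The weighted sum after the `i`th coordinate against the rows below its scale. -/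
lemma tail_le {P : Finset ℕ} (hz : Antitone z)
    (hm : (univ.val.map fun i => ⌊z i⌋₊) = P.val.map cell) (i : Fin k) :
    tailSum z i ≤ ∑ u ∈ range (⌊z i⌋₊ + 1),
      gfun (P.filter fun x => u ≤ cell x ∧ cell x ≤ ⌊z i⌋₊).card := by
  set f := fun j => ⌊z j⌋₊ with hfdef
  have hf : Antitone f := antitone_floor hz
  calc tailSum z i ≤ ∑ j ∈ univ.filter (fun j => i < j),
        ∑ u ∈ (range (f i + 1)).filter (fun u => u ≤ f j), aCoef ((j : ℕ) - (i : ℕ)) := by
        refine sum_le_sum fun j hj => ?_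
        have hij : (i : ℕ) < j := (mem_filter.1 hj).2
        rw [sum_const, nsmul_eq_mul, mul_comm]
        refine mul_le_mul_of_nonneg_right ?_ (aCoef_nonneg (by omega))
        have e : (range (f i + 1)).filter (fun u => u ≤ f j) = range (f j + 1) := by
          have := hf (show i ≤ j from le_of_lt hij)
          ext u
          simp only [mem_filter, mem_range]
          omega
        rw [e, card_range]
        push_cast
        exact (Nat.lt_floor_add_one _).le
    _ = ∑ u ∈ range (f i + 1),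
        ∑ j ∈ univ.filter (fun j => i < j ∧ u ≤ f j), aCoef ((j : ℕ) - (i : ℕ)) := by
        simp only [sum_filter]
        rw [sum_comm]
        refine sum_congr rfl fun j _ => ?_
        split_ifs with h <;> simp [h]
    _ ≤ _ := sum_le_sum fun u hu => by
        rw [sum_tail_seg hf i u]
        refine gfun_mono ?_
        rw [← card_filter_floor hm (fun c => u ≤ c ∧ c ≤ f i)]
        refine Nat.succ_le_of_lt (card_lt_card ⟨fun j hj => ?_, fun hsub => ?_⟩)
        · obtain ⟨-, hij, hju⟩ := mem_filter.1 hj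
          exact mem_filter.2 ⟨mem_univ _, hju, hf hij.le⟩
        · have : i ∈ univ.filter fun j => i < j ∧ u ≤ f j := hsub (mem_filter.2
            ⟨mem_univ _, Nat.lt_succ_iff.1 (mem_range.1 hu), le_rfl⟩)
          exact lt_irrefl i (mem_filter.1 this).2.1

/-- The weighted sum of all coordinates against the rows. -/
lemma top_le {P : Finset ℕ} {U : ℕ} (hz : Antitone z)
    (hm : (univ.val.map fun i => ⌊z i⌋₊) = P.val.map cell) (hU : ∀ i, ⌊z i⌋₊ ≤ U) :
    topSum z ≤ ∑ u ∈ range (U + 1), gfun ((P.filter fun x => u ≤ cell x).card + 1) := by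
  set f := fun j => ⌊z j⌋₊ with hfdef
  have hf : Antitone f := antitone_floor hz
  calc topSum z ≤ ∑ j : Fin k, ∑ u ∈ (range (U + 1)).filter (fun u => u ≤ f j),
        aCoef ((j : ℕ) + 1) := by
        refine sum_le_sum fun j _ => ?_
        rw [sum_const, nsmul_eq_mul, mul_comm]
        refine mul_le_mul_of_nonneg_right ?_ (aCoef_nonneg (by omega))
        have e : (range (U + 1)).filter (fun u => u ≤ f j) = range (f j + 1) := by
          have : f j ≤ U := hU j
          ext u
          simp only [mem_filter, mem_range]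
          omega
        rw [e, card_range]
        push_cast
        exact (Nat.lt_floor_add_one _).le
    _ = ∑ u ∈ range (U + 1), ∑ j ∈ univ.filter (fun j => u ≤ f j), aCoef ((j : ℕ) + 1) := by
        simp only [sum_filter]
        rw [sum_comm]
    _ = _ := sum_congr rfl fun u _ => by
        rw [sum_top_seg hf u, card_filter_floor hm (fun c => u ≤ c)]

/-- The weighted sum of all coordinates is at least the rows on scales from one on. -/
lemma le_top {P : Finset ℕ} {a b : ℕ} (ha : 1 ≤ a) (hz : Antitone z) (h0 : ∀ i, 0 ≤ z i)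
    (hm : (univ.val.map fun i => ⌊z i⌋₊) = P.val.map cell) :
    ∑ u ∈ Ico a b, gfun ((P.filter fun x => u ≤ cell x).card + 1) ≤ topSum z := by
  set f := fun j => ⌊z j⌋₊ with hfdef
  have hf : Antitone f := antitone_floor hz
  calc ∑ u ∈ Ico a b, gfun ((P.filter fun x => u ≤ cell x).card + 1)
      = ∑ u ∈ Ico a b, ∑ j ∈ univ.filter (fun j => u ≤ f j), aCoef ((j : ℕ) + 1) :=
        sum_congr rfl fun u _ => by
          rw [sum_top_seg hf u, card_filter_floor hm (fun c => u ≤ c)]
    _ = ∑ j : Fin k, ∑ u ∈ (Ico a b).filter (fun u => u ≤ f j), aCoef ((j : ℕ) + 1) := by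
        simp only [sum_filter]
        rw [sum_comm]
    _ ≤ _ := sum_le_sum fun j _ => by
        rw [sum_const, nsmul_eq_mul, mul_comm]
        refine mul_le_mul_of_nonneg_left ?_ (aCoef_nonneg (by omega))
        refine le_trans ?_ (Nat.floor_le (h0 j))
        refine Nat.cast_le.2 ((card_le_card (t := Icc 1 (f j)) fun u hu => ?_).trans (by simp [hfdef]))
        obtain ⟨h1, h2⟩ := mem_filter.1 hu
        exact mem_Icc.2 ⟨ha.trans (mem_Ico.1 h1).1, h2⟩

lemma Kmax_mono : Monotone Kmax := fun a b h => by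
  have ha : (0 : ℝ) ≤ Real.log ((a : ℝ) + 3) :=
    Real.log_nonneg (by linarith [(Nat.cast_nonneg a : (0 : ℝ) ≤ a)])
  have h' : (a : ℝ) ≤ b := by exact_mod_cast h
  exact Nat.ceil_le_ceil (by gcongr)

lemma Kmax_le (s : ℕ) : (Kmax s : ℝ) ≤ 1000 * Real.log ((s : ℝ) + 3) ^ 2 + 1 :=
  (Nat.ceil_lt_add_one (by positivity)).le

lemma eventually_log_large (c : ℝ) : ∀ᶠ s : ℕ in atTop, c ≤ Real.log ((s : ℝ) + 3) :=
  (Real.tendsto_log_atTop.comp
    (tendsto_atTop_add_const_right _ _ tendsto_natCast_atTop_atTop)).eventually_ge_atTop c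

lemma eventually_Kmax_cutoff : ∀ᶠ s : ℕ in atTop, 2 * Kmax (cutoff s) ≤ Kmax s := by
  filter_upwards [eventually_log_large 20, eventually_ge_atTop 1] with s hL hs
  set L := Real.log ((s : ℝ) + 3)
  have hc : (cutoff s : ℝ) ≤ Real.sqrt s := Real.nat_sqrt_le_real_sqrt
  have hs' : (1 : ℝ) ≤ s := by exact_mod_cast hs
  have hr : 1 ≤ Real.sqrt s := Real.one_le_sqrt.2 hs'
  have hl : Real.log ((cutoff s : ℝ) + 3) ≤ Real.log 4 + L / 2 := by
    calc Real.log ((cutoff s : ℝ) + 3) ≤ Real.log (4 * Real.sqrt s) :=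
          Real.log_le_log (by positivity) (by linarith)
      _ = Real.log 4 + Real.log s / 2 := by
          rw [Real.log_mul (by norm_num) (by linarith), Real.log_sqrt (by linarith)]
      _ ≤ _ := by
          have : Real.log (s : ℝ) ≤ L := Real.log_le_log (by linarith) (by linarith)
          linarith
  have h4 : Real.log 4 ≤ 4 := Real.log_le_self (by norm_num)
  have h0 : 0 ≤ Real.log ((cutoff s : ℝ) + 3) :=
    Real.log_nonneg (by linarith [(Nat.cast_nonneg (cutoff s) : (0 : ℝ) ≤ cutoff s)])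
  have hsq := mul_le_mul hl hl h0 (by linarith [Real.log_nonneg (show (1:ℝ) ≤ 4 by norm_num)])
  have h1 := Kmax_le (cutoff s)
  have h2 : 1000 * L ^ 2 ≤ (Kmax s : ℝ) := Nat.le_ceil _
  have h3 : (2 : ℝ) * (Kmax (cutoff s) : ℝ) ≤ (Kmax s : ℝ) := by nlinarith
  exact_mod_cast h3

lemma eventually_Kmax_shift : ∀ᶠ s : ℕ in atTop, Kmax (s + 2) ≤ 2 * Kmax s := by
  filter_upwards [eventually_log_large 4] with s hL
  set L := Real.log ((s : ℝ) + 3)
  have hs : (0 : ℝ) ≤ s := Nat.cast_nonneg s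
  have hl : Real.log (((s + 2 : ℕ) : ℝ) + 3) ≤ L + 1 := by
    calc Real.log (((s + 2 : ℕ) : ℝ) + 3) ≤ Real.log (2 * ((s : ℝ) + 3)) :=
          Real.log_le_log (by positivity) (by push_cast; linarith)
      _ = Real.log 2 + L := Real.log_mul (by norm_num) (by linarith)
      _ ≤ _ := by linarith [Real.log_two_lt_d9]
  have h0 : 0 ≤ Real.log (((s + 2 : ℕ) : ℝ) + 3) :=
    Real.log_nonneg (by push_cast; linarith)
  have hsq := mul_le_mul hl hl h0 (by linarith)
  have h1 := Kmax_le (s + 2)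
  have h2 : 1000 * L ^ 2 ≤ (Kmax s : ℝ) := Nat.le_ceil _
  have h3 : ((Kmax (s + 2) : ℕ) : ℝ) ≤ 2 * (Kmax s : ℝ) := by nlinarith
  exact_mod_cast h3

/-- The error terms are below `s ^ (7/8)`. -/
lemma eventually_growth : ∀ᶠ s : ℕ in atTop,
    ((cutoff s : ℝ) + 5) * (5 * (Kmax s : ℝ) + 1) ^ 2 ≤ (s : ℝ) ^ ((7 : ℝ) / 8) := by
  set B : ℝ := 5000 * 256 ^ 2 + 6
  filter_upwards [eventually_ge_atTop 1, ((tendsto_rpow_atTop (show (0 : ℝ) < 5 / 16 by norm_num)).comp
    tendsto_natCast_atTop_atTop).eventually_ge_atTop (6 * B ^ 2)] with s hs hbig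
  have hs' : (1 : ℝ) ≤ s := by exact_mod_cast hs
  set L := Real.log ((s : ℝ) + 3)
  set x := (s : ℝ) ^ ((1 : ℝ) / 64)
  have hx : 1 ≤ x := Real.one_le_rpow hs' (by norm_num)
  have hL : L ≤ 256 * x := by
    calc L ≤ ((s : ℝ) + 3) ^ ((1 : ℝ) / 64) / (1 / 64) :=
          Real.log_le_rpow_div (by linarith) (by norm_num)
      _ ≤ (4 * s) ^ ((1 : ℝ) / 64) / (1 / 64) := by gcongr; linarith
      _ ≤ _ := by
          rw [Real.mul_rpow (by norm_num) (by linarith)]
          have : (4 : ℝ) ^ ((1 : ℝ) / 64) ≤ 4 :=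
            Real.rpow_le_self_of_one_le (by norm_num) (by norm_num)
          nlinarith
  have hL0 : 0 ≤ L := Real.log_nonneg (by linarith)
  have hK : 5 * (Kmax s : ℝ) + 1 ≤ B * x ^ 2 := by
    have := Kmax_le s
    have := mul_le_mul hL hL hL0 (by positivity)
    nlinarith
  have hc : (cutoff s : ℝ) + 5 ≤ 6 * Real.sqrt s := by
    have : (cutoff s : ℝ) ≤ Real.sqrt s := Real.nat_sqrt_le_real_sqrt
    linarith [Real.one_le_sqrt.2 hs']
  calc ((cutoff s : ℝ) + 5) * (5 * (Kmax s : ℝ) + 1) ^ 2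
      ≤ (6 * Real.sqrt s) * (B * x ^ 2) ^ 2 := by gcongr
    _ = (6 * B ^ 2) * ((s : ℝ) ^ ((1 : ℝ) / 2) * x ^ (4 : ℕ)) := by
        rw [← Real.sqrt_eq_rpow]; ring
    _ ≤ (s : ℝ) ^ ((5 : ℝ) / 16) * ((s : ℝ) ^ ((1 : ℝ) / 2) * x ^ (4 : ℕ)) := by
        gcongr
        exact hbig
    _ = _ := by
        rw [← Real.rpow_natCast x 4, ← Real.rpow_mul (by linarith),
          ← Real.rpow_add (by linarith), ← Real.rpow_add (by linarith)]
        norm_num

lemma eps_mul_le {s : ℕ} (hs : 1 ≤ s) : eps s * s ≤ (s : ℝ) ^ ((7 : ℝ) / 8) := by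
  have hs' : (1 : ℝ) ≤ s := by exact_mod_cast hs
  calc eps s * s ≤ (s : ℝ) ^ (-(1 : ℝ) / 8) * s := by
        refine mul_le_mul_of_nonneg_right ?_ (by linarith)
        exact Real.rpow_le_rpow_of_nonpos (by linarith) (by linarith) (by norm_num)
    _ = _ := by
        rw [← Real.rpow_add_one (by linarith)]
        norm_num

lemma le_eps_mul {s : ℕ} (hs : 1 ≤ s) : (s : ℝ) ^ ((7 : ℝ) / 8) ≤ 2 * (eps s * s) := by
  have hs' : (1 : ℝ) ≤ s := by exact_mod_cast hs
  have h2 : (2 : ℝ) ^ ((1 : ℝ) / 8) ≤ 2 := Real.rpow_le_self_of_one_le (by norm_num) (by norm_num)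
  have e : (s : ℝ) ^ (-(1 : ℝ) / 8) * s = (s : ℝ) ^ ((7 : ℝ) / 8) := by
    rw [← Real.rpow_add_one (by linarith)]; norm_num
  have h1 : (2 * (s : ℝ)) ^ (-(1 : ℝ) / 8) ≤ eps s :=
    Real.rpow_le_rpow_of_nonpos (by linarith) (by linarith) (by norm_num)
  rw [Real.mul_rpow (by norm_num) (by linarith)] at h1
  have h3 : (1 : ℝ) / 2 ≤ (2 : ℝ) ^ (-(1 : ℝ) / 8) := by
    rw [show -(1 : ℝ) / 8 = -(1 / 8) by norm_num, Real.rpow_neg (by norm_num), one_div,
      inv_le_inv₀ (by norm_num) (by positivity)]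
    simpa using h2
  have h4 : (0 : ℝ) ≤ (s : ℝ) ^ (-(1 : ℝ) / 8) := by positivity
  have h5 := mul_le_mul_of_nonneg_right h3 h4
  have h6 : (s : ℝ) ^ (-(1 : ℝ) / 8) / 2 ≤ eps s := by linarith
  nlinarith [mul_le_mul_of_nonneg_right h6 (show (0 : ℝ) ≤ s by linarith)]

lemma measurableSet_polyPlus (k : ℕ) (s0 X : ℝ) : MeasurableSet (PolyPlus k s0 X) := by
  simp only [PolyPlus, tailSum, topSum, Set.ofPred_and, Set.ofPred_forall]
  refine MeasurableSet.inter (.iInter fun i => measurableSet_le measurable_const (measurable_pi_apply i))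
    (MeasurableSet.inter (.iInter fun i => measurableSet_le (measurable_pi_apply i) measurable_const)
      (MeasurableSet.inter ?_ (MeasurableSet.inter (.iInter fun i => measurableSet_le ?_ ?_)
        (measurableSet_le ?_ measurable_const))))
  · exact .iInter fun i => .iInter fun j => .iInter fun _ =>
      measurableSet_le (measurable_pi_apply j) (measurable_pi_apply i)
  all_goals fun_prop

lemma polyPlus_mono {k : ℕ} {s0 X X' : ℝ} (h : X ≤ X') : PolyPlus k s0 X ⊆ PolyPlus k s0 X' :=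
  fun _ ⟨h1, h2, h3, h4, h5⟩ => ⟨h1, fun i => (h2 i).trans h, h3, h4, h5.trans h⟩

lemma volume_polyPlus_ne_top (k : ℕ) (s0 X : ℝ) : volume (PolyPlus k s0 X) ≠ ⊤ := by
  refine ne_top_of_le_ne_top ?_ (measure_mono (t := Set.Icc (fun _ => s0) fun _ => X)
    fun z hz => ⟨hz.1, hz.2.1⟩)
  exact isCompact_Icc.measure_lt_top.ne

end P031.Upper
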